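import Crest.Agent.Lib.ODEFlow
import Crest.Agent.R202.LinODE
import Crest.Agent.X212.Cyf70.Cyl

/-!
# Linear ODEs along `t` on `Y × ℝ`: smooth dependence on the point of `Y`
-/

set_option autoImplicit false
set_option linter.unusedSectionVars false
noncomputable section
open scoped Manifold ContDiff Topology InnerProductSpace
open Set Function Filter

namespace Crest.Agent.X212.Tmp64
open Crest.Agent.Lib.ODEFlow Cyf70

variable {F : Type} [NormedAddCommGroup F] [NormedSpace ℝ F]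

/-- uniqueness for linear equations on the line -/
theorem lin_unique {L : ℝ → F →L[ℝ] F} (hL : Continuous L) {f g : ℝ → F}
    (hf : ∀ t, HasDerivAt f (L t (f t)) t) (hg : ∀ t, HasDerivAt g (L t (g t)) t) {t0 : ℝ}
    (h0 : f t0 = g t0) (t : ℝ) : f t = g t := by
  obtain ⟨K, hK⟩ := (isCompact_Icc (a := t0 - (|t - t0| + 1))
    (b := t0 + (|t - t0| + 1))).exists_bound_of_continuousOn hL.norm.continuousOn
  have hp : 0 < |t - t0| + 1 := by positivity
  refine ODE_solution_unique_of_mem_Ioo (v := fun t x => L t x) (s := fun _ => univ)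
    (K := K.toNNReal) (a := t0 - (|t - t0| + 1)) (b := t0 + (|t - t0| + 1)) (t₀ := t0)
    (fun s hs => ((L s).lipschitz.weaken ?_).lipschitzOnWith) ⟨by linarith, by linarith⟩
    (fun s _ => ⟨hf s, mem_univ _⟩) (fun s _ => ⟨hg s, mem_univ _⟩) h0
    ⟨by linarith [neg_abs_le (t - t0)], by linarith [le_abs_self (t - t0)]⟩
  exact NNReal.coe_le_coe.1 (((le_abs_self _).trans
    (hK s (Ioo_subset_Icc_self hs))).trans (Real.le_coe_toNNReal K))

variable [CompleteSpace F]
  {E : Type} [NormedAddCommGroup E] [NormedSpace ℝ E] [FiniteDimensional ℝ E]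
  {HM : Type} [TopologicalSpace HM] {I : ModelWithCorners ℝ E HM} [I.Boundaryless]
  {Y : Type} [TopologicalSpace Y] [ChartedSpace HM Y] [IsManifold I ∞ Y]

/-- a family of solutions with smooth coefficients and smooth initial values is smooth -/
theorem sol_smooth {A : Y × ℝ → F →L[ℝ] F} (hA : ContMDiff (IC I) 𝓘(ℝ, F →L[ℝ] F) ∞ A) {t0 : ℝ}
    {g : Y × ℝ → F} (h0 : ContMDiff I 𝓘(ℝ, F) ∞ fun y => g (y, t0))
    (hg : ∀ y t, HasDerivAt (fun s => g (y, s)) (A (y, t) (g (y, t))) t) :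
    ContMDiff (IC I) 𝓘(ℝ, F) ∞ g := by
  have : CompleteSpace E := FiniteDimensional.complete ℝ E
  rintro ⟨y0, t1⟩
  set φ := extChartAt I y0 with hφ
  set U : Set (E × ℝ × F) := φ.target ×ˢ univ with hU
  have hUo : IsOpen U := (isOpen_extChartAt_target y0).prod isOpen_univ
  have sy : ∀ z ∈ φ.target, ContMDiffAt 𝓘(ℝ, E) I ∞ φ.symm z := fun z hz =>
    (contMDiffOn_extChartAt_symm y0).contMDiffAt ((isOpen_extChartAt_target y0).mem_nhds hz)
  set v : E × ℝ × F → E × ℝ × F := fun p => (0, 1, A (φ.symm p.1, p.2.1) p.2.2) with hv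
  have hvd : ContDiffOn ℝ (⊤ : ℕ∞) v U := fun p hp => by
    have h1 : ContMDiffAt 𝓘(ℝ, E × ℝ × F) (IC I) ∞ (fun p : E × ℝ × F => (φ.symm p.1, p.2.1)) p :=
      ((sy _ hp.1).comp p contDiffAt_fst.contMDiffAt).prodMk
        (contDiffAt_snd.fst).contMDiffAt
    exact (contDiffAt_const.prodMk (contDiffAt_const.prodMk
      (((hA _).comp p h1).contDiffAt.clm_apply contDiffAt_snd.snd))).contDiffWithinAt
  have hv1 : ContDiffOn ℝ 1 v U := hvd.of_le (by exact_mod_cast le_top)
  have key : ∀ z ∈ φ.target, ∀ l : ℝ, (((z, t0, g (φ.symm z, t0)), l) ∈ dom v U) ∧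
      flow v U ((z, t0, g (φ.symm z, t0)), l) = (z, t0 + l, g (φ.symm z, t0 + l)) := by
    intro z hz l
    refine flow_of_integralCurve' hUo hv1 (c := fun s => (z, t0 + s, g (φ.symm z, t0 + s)))
      (by simp) (fun _ _ => ⟨hz, mem_univ _⟩) fun s _ => ?_
    exact (hasDerivAt_const s z).prodMk (((hasDerivAt_id s).const_add t0).prodMk
      ((hg (φ.symm z) (t0 + s)).comp_const_add t0 s))
  have hy : φ y0 ∈ φ.target := mem_extChartAt_target y0
  have h1 : ContMDiffAt (IC I) 𝓘(ℝ, (E × ℝ × F) × ℝ) ∞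
      (fun x : Y × ℝ => ((φ x.1, t0, g (x.1, t0)), x.2 - t0)) (y0, t1) := by
    refine ContMDiffAt.prodMk_space (ContMDiffAt.prodMk_space ?_
      (ContMDiffAt.prodMk_space contMDiffAt_const ((h0 _).comp _ contMDiffAt_fst)))
      (contMDiffAt_snd.sub contMDiffAt_const)
    exact (contMDiffAt_extChartAt (I := I) (x := y0)).comp (y0, t1) contMDiffAt_fst
  have hd := (key _ hy (t1 - t0)).1
  rw [hφ, extChartAt_to_inv, ← hφ] at hd
  have h2 : ContDiffAt ℝ ∞ (fun p => (flow v U p).2.2) ((φ y0, t0, g (y0, t0)), t1 - t0) :=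
    ((contDiffOn_flow (n := ⊤) le_top hUo hvd).contDiffAt
      ((isOpen_dom hUo hv1).mem_nhds hd)).snd.snd
  refine (h2.contMDiffAt.comp (y0, t1) h1).congr_of_eventuallyEq ?_
  have h3 : ∀ᶠ x : Y × ℝ in 𝓝 (y0, t1), x.1 ∈ φ.source :=
    continuousAt_fst.tendsto.eventually (extChartAt_source_mem_nhds (I := I) y0)
  filter_upwards [h3] with x hx
  have := (key _ (φ.map_source hx) (x.2 - t0)).2
  rw [φ.left_inv hx] at this
  simp only [comp_apply, this, add_sub_cancel]

/-- **Smooth solutions of linear equations along `t`.** -/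
theorem exists_sol {A : Y × ℝ → F →L[ℝ] F} (hA : ContMDiff (IC I) 𝓘(ℝ, F →L[ℝ] F) ∞ A) (t0 : ℝ)
    {x0 : Y → F} (hx : ContMDiff I 𝓘(ℝ, F) ∞ x0) :
    ∃ g : Y × ℝ → F, ContMDiff (IC I) 𝓘(ℝ, F) ∞ g ∧ (∀ y, g (y, t0) = x0 y) ∧
      ∀ y t, HasDerivAt (fun s => g (y, s)) (A (y, t) (g (y, t))) t := by
  have : ∀ y, ∃ S : ℝ → F, S t0 = x0 y ∧ ∀ t, HasDerivAt S (A (y, t) (S t)) t := fun y => by
    obtain ⟨S, -, h1, h2⟩ := R202.LinODE.exists_flow (X := Unit) (A := fun _ t => A (y, t))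
      (hA.continuous.comp (continuous_const.prodMk continuous_snd)) t0 (x0 := fun _ => x0 y)
      continuous_const
    exact ⟨S (), h1 (), h2 ()⟩
  choose S h1 h2 using this
  exact ⟨fun x => S x.1 x.2, sol_smooth hA (t0 := t0) (by simpa only [h1] using hx) h2, h1, h2⟩

section alg
variable {R : Type} [NormedRing R] [NormedAlgebra ℝ R] [CompleteSpace R]

/-- **Parallel transport**: `g' = - W g`, `k' = k W`, `g k = k g = 1`. -/
theorem exists_transport {W : Y × ℝ → R} (hW : ContMDiff (IC I) 𝓘(ℝ, R) ∞ W) (t0 : ℝ) :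
    ∃ g k : Y × ℝ → R, ContMDiff (IC I) 𝓘(ℝ, R) ∞ g ∧ ContMDiff (IC I) 𝓘(ℝ, R) ∞ k ∧
      (∀ y, g (y, t0) = 1) ∧ (∀ y, k (y, t0) = 1) ∧
      (∀ y t, HasDerivAt (fun s => g (y, s)) (-(W (y, t) * g (y, t))) t) ∧
      (∀ y t, HasDerivAt (fun s => k (y, s)) (k (y, t) * W (y, t)) t) ∧
      (∀ x, k x * g x = 1) ∧ ∀ x, g x * k x = 1 := by
  obtain ⟨g, g1, g2, g3⟩ := exists_sol (I := I) (A := fun x => -ContinuousLinearMap.mul ℝ R (W x))
    ((ContinuousLinearMap.mul ℝ R).contMDiff.comp hW).neg t0 (x0 := fun _ => 1) contMDiff_const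
  obtain ⟨k, k1, k2, k3⟩ := exists_sol (I := I)
    (A := fun x => (ContinuousLinearMap.mul ℝ R).flip (W x))
    ((ContinuousLinearMap.mul ℝ R).flip.contMDiff.comp hW) t0 (x0 := fun _ => 1) contMDiff_const
  refine ⟨g, k, g1, k1, g2, k2, g3, k3, fun x => ?_, fun x => ?_⟩
  · refine lin_unique (L := fun _ => 0) continuous_const (f := fun s => k (x.1, s) * g (x.1, s))
      (g := fun _ => 1) (fun t => ((k3 x.1 t).mul (g3 x.1 t)).congr_deriv (by simp [mul_assoc]))
      (fun t => by simpa using hasDerivAt_const t (1 : R)) (t0 := t0) (by simp [g2, k2]) x.2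
  · refine lin_unique (L := fun t => (ContinuousLinearMap.mul ℝ R).flip (W (x.1, t))
      - ContinuousLinearMap.mul ℝ R (W (x.1, t))) ?_ (f := fun s => g (x.1, s) * k (x.1, s))
      (g := fun _ => 1) (fun t => ((g3 x.1 t).mul (k3 x.1 t)).congr_deriv ?_)
      (fun t => by simpa using hasDerivAt_const t (1 : R)) (t0 := t0) (by simp [g2, k2]) x.2
    · have := hW.continuous.comp (Continuous.prodMk_right x.1)
      exact ((ContinuousLinearMap.mul ℝ R).flip.continuous.comp this).sub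
        ((ContinuousLinearMap.mul ℝ R).continuous.comp this)
    · simp only [neg_apply, ContinuousLinearMap.mul_apply', ContinuousLinearMap.flip_apply,
        sub_apply]
      noncomm_ring

omit [CompleteSpace R] in
/-- a function with zero derivative is constant -/
theorem const_of_deriv {f : ℝ → F} (h : ∀ t, HasDerivAt f 0 t) (s t : ℝ) : f s = f t :=
  is_const_of_deriv_eq_zero (fun t => (h t).differentiableAt) (fun t => (h t).deriv) s t

end alg

end Crest.Agent.X212.Tmp64
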