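import Crest.Agent.X212.Tmp64.Sq
import Crest.Agent.X212.Tmp64.Ode
import Crest.Agent.X212.Dgr80.Defs

/-!
# X212, TEMP (helper64), part 3: temporal gauge of a configuration on `Y × ℝ`
-/

set_option autoImplicit false
set_option linter.unusedSectionVars false
noncomputable section
open scoped Manifold ContDiff Topology InnerProductSpace
open MeasureTheory Set Function Filter

namespace Crest.Agent.X212.Tmp64
open An Sob92 Cyf70 Pj41 Eqv71
open Wz78 (nab curv)

section alg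
variable {R : Type} [NormedRing R] [NormedAlgebra ℝ R] {f k g W : ℝ → R} {X A C : R} {t : ℝ}

theorem comm_deriv (hf : HasDerivAt f X t) (h : ∀ s, f s * A - A * f s = C) : X * A = A * X := by
  have h1 := (hf.mul_const A).sub (hf.const_mul A)
  rw [show ((fun s => f s * A) - fun s => A * f s) = fun _ => C from funext h] at h1
  exact sub_eq_zero.1 (h1.unique (hasDerivAt_const t C))

theorem conj_const [CompleteSpace R] (hk : ∀ t, HasDerivAt k (k t * W t) t)
    (hg : ∀ t, HasDerivAt g (-(W t * g t)) t) {f' : ℝ → R} (hf : ∀ t, HasDerivAt f (f' t) t)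
    (h : ∀ t, f' t + (W t * f t - f t * W t) = 0) (s t : ℝ) :
    k s * f s * g s = k t * f t * g t := by
  refine const_of_deriv (f := fun s => k s * f s * g s) (fun t => ?_) s t
  refine (((hk t).mul (hf t)).mul (hg t)).congr_deriv ?_
  rw [eq_neg_of_add_eq_zero_left (h t)]
  simp only [Pi.mul_apply]
  noncomm_ring

end alg

section gen
variable {E : Type} [NormedAddCommGroup E] [NormedSpace ℝ E] [FiniteDimensional ℝ E]
  [MeasurableSpace E] [BorelSpace E]
  {HM : Type} [TopologicalSpace HM] {I : ModelWithCorners ℝ E HM}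
  {M : Type} [TopologicalSpace M] [ChartedSpace HM M] [IsManifold I ∞ M]
  [MeasurableSpace M] {ι : Type} [Fintype ι] {lam : Type} [Fintype lam] {r : ℕ}
  {B : Base M ι lam} {G : Geo I M ι lam}

/-- the connection form vanishes on the complement of the bundle -/
def Red (c : Cfg M ι lam r) : Prop := ∀ a x, (1 - c.m.p x) * c.W a x * (1 - c.m.p x) = 0

theorem red_psh {F : Fr I M ι} {c : Cfg M ι lam r} {m' : Md M ι lam} {u : M → CL c.m.V m'.V}
    (hu : Iso0 I c.m m' univ u) : Red (psh F c m' u) := fun a x => by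
  have h := hu.iso x trivial
  have h1 : (1 - m'.p x) ∘L u x = 0 := by
    rw [ContinuousLinearMap.sub_comp, h.left]; exact sub_self _
  have h2 : ad (u x) ∘L (1 - m'.p x) = 0 := by
    rw [ContinuousLinearMap.comp_sub, h.symm.idem]; exact sub_self _
  have h3 : ((1 - m'.p x) ∘L pshW I (F.e a) u (c.W a) x) ∘L (1 - m'.p x) = 0 := by
    generalize 1 - m'.p x = Q at h1 h2
    rw [pshW, ContinuousLinearMap.comp_sub, ContinuousLinearMap.sub_comp,
      ContinuousLinearMap.comp_assoc, ContinuousLinearMap.comp_assoc, h2,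
      ← ContinuousLinearMap.comp_assoc Q (u x ∘L _), ← ContinuousLinearMap.comp_assoc Q (u x), h1]
    simp
  exact h3

variable {c c' : Cfg M ι lam r} {O : Set M} {u : M → CL c.m.V c'.m.V} {x : M}

theorem Eq0.itw (h : Eq0 G.F c c' O u) (hx : x ∈ O) : Itw I G.F.e c.W c'.W u x := fun a =>
  sub_eq_zero.1 (h.par x hx a)

theorem Eq0.nab (h : Eq0 G.F c c' O u) (hO : IsOpen O) (hc : AdmOn c B G O) (hx : x ∈ O) (a : ι) :
    nab I G.F.e c'.W a c'.Φ x = u x (nab I G.F.e c.W a c.Φ x) := by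
  rw [← (h.itw hx).nab (h.iso.su x hx).md (hc.sm x hx).md,
    Wz78.nab_congr a ((hO.eventually_mem hx).mono h.Φ)]

theorem Eq0.Fg (h : Eq0 G.F c c' O u) (hO : IsOpen O) (hB : B.OK I) (hc : c.Adm B G)
    (hc' : c'.Adm B G) (hx : x ∈ O) (s : ι × ι) :
    c'.m.Fg G.F c'.W x s = cj (u x) (c.m.Fg G.F c.W x s) := by
  have k := itw_curv (Wz78.frm G.F) ((hO.eventually_mem hx).mono fun y hy => h.itw hy)
    (h.iso.su x hx) (fun a => hc.conn.cc.sm a x) (fun a => hc'.conn.cc.sm a x) s.1 s.2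
  have e := me_of_meq (h.iso.mEq (OK.on hc.ok _) (OK.on hc'.ok _)) hx
  have k' : curv I G.F.e G.F.c c'.W s.1 s.2 x * c'.m.p x =
      u x ∘L curv I G.F.e G.F.c c.W s.1 s.2 x ∘L trn (u x) := by
    rw [← ContinuousLinearMap.comp_assoc, ← k, ContinuousLinearMap.comp_assoc, e.uu']; rfl
  have := e.pg (BE.refl hB x) hB hB hc.ok hc'.ok (hsL (curv I G.F.e G.F.c c.W s.1 s.2 x))
  rw [cj_hsL, ← k'] at this
  exact (Wz78.pg_mul_p _).symm.trans this

end gen

variable {E : Type} [NormedAddCommGroup E] [NormedSpace ℝ E] [FiniteDimensional ℝ E]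
  [MeasurableSpace E] [BorelSpace E]
  {HM : Type} [TopologicalSpace HM] {I : ModelWithCorners ℝ E HM} [I.Boundaryless]
  {Y : Type} [TopologicalSpace Y] [ChartedSpace HM Y] [IsManifold I ∞ Y] [T2Space Y]
  [MeasurableSpace Y] [BorelSpace Y] [SigmaCompactSpace Y]
  {ι : Type} [Fintype ι] {lam : Type} [Fintype lam] {r : ℕ}
  {N : Type} [NormedAddCommGroup N] [NormedSpace ℝ N]
  {FY : Fr I Y ι} {B : Base (Y × ℝ) (Option ι) lam} {G : Geo (IC I) (Y × ℝ) (Option ι) lam}
  {c : Cfg (Y × ℝ) (Option ι) lam r}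

/-- a function on the cylinder which does not depend on time -/
def TI {α : Type} (f : Y × ℝ → α) : Prop := ∀ y s t, f (y, s) = f (y, t)

/-- temporal gauge: the module does not depend on time and the time component vanishes -/
structure Tmp (c : Cfg (Y × ℝ) (Option ι) lam r) : Prop where
  p : TI c.m.p
  ρ : ∀ a, TI (c.m.ρ a)
  j : TI c.m.j
  W : ∀ x, c.W none x = 0

/-- translation invariant configurations -/
structure Inv (c : Cfg (Y × ℝ) (Option ι) lam r) : Prop extends Tmp c where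
  Wi : ∀ a, TI (c.W a)
  Φ : TI c.Φ

/-- the configuration frozen at the time `t0` -/
abbrev frz (t0 : ℝ) (c : Cfg (Y × ℝ) (Option ι) lam r) : Cfg (Y × ℝ) (Option ι) lam r :=
  sqC (fun _ => t0) c

theorem frz_none (t0 : ℝ) (x : Y × ℝ) : (frz t0 c).W none x = 0 := by
  change deriv (fun _ => t0) x.2 • c.W none _ = 0
  simp

theorem frz_some (t0 : ℝ) (a : ι) (x : Y × ℝ) : (frz t0 c).W (some a) x = c.W (some a) (x.1, t0) :=
  one_smul ℝ (c.W (some a) (x.1, t0))

theorem inv_frz (t0 : ℝ) (c : Cfg (Y × ℝ) (Option ι) lam r) : Inv (frz t0 c) :=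
  ⟨⟨fun _ _ _ => rfl, fun _ _ _ _ => rfl, fun _ _ _ => rfl, frz_none t0⟩, fun a y s t => by
    cases a
    · rw [frz_none, frz_none]
    · rfl, fun _ _ _ => rfl⟩

theorem Inv.sqC_eq (h : Inv c) (θ : ℝ → ℝ) : sqC θ c = c := by
  obtain ⟨⟨N, J, p, ρ, j⟩, W, Φ, z⟩ := c
  have h1 : (fun x => p (sq θ x)) = p := funext fun x => h.p _ _ _
  have h2 : (fun a x => ρ a (sq θ x)) = ρ := funext fun a => funext fun x => h.ρ a _ _ _
  have h3 : (fun x => j (sq θ x)) = j := funext fun x => h.j _ _ _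
  have h4 : (fun a x => sw θ a x.2 • W a (sq θ x)) = W := funext fun a => funext fun x => by
    cases a
    · have := h.W
      simp only at this
      rw [this, this, smul_zero]
    · exact (one_smul _ _).trans (h.Wi _ _ _ _)
  have h5 : (fun x => Φ (sq θ x)) = Φ := funext fun x => h.Φ _ _ _
  have : ∀ p' ρ' j' W' Φ', p' = p → ρ' = ρ → j' = j → W' = W → Φ' = Φ →
      (⟨⟨N, J, p', ρ', j'⟩, W', Φ', z⟩ : Cfg (Y × ℝ) (Option ι) lam r) =
        ⟨⟨N, J, p, ρ, j⟩, W, Φ, z⟩ := by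
    rintro _ _ _ _ _ rfl rfl rfl rfl rfl; rfl
  exact this _ _ _ _ _ h1 h2 h3 h4 h5

namespace Cy
variable (h : Cy FY B G)
include h

theorem slice {u : Y × ℝ → N} (hu : Sm (IC I) u) (y : Y) (t : ℝ) :
    HasDerivAt (fun s => u (y, s)) (G.F.D none u (y, t)) t := by
  rw [h.D_eq]; exact hasDerivAt_slice _ hu y t

theorem ti_D {u : Y × ℝ → N} (hu : Sm (IC I) u) (hi : TI u) (a : ι) : TI (G.F.D (some a) u) :=
  fun y s t => by
    rw [h.D_eq, D_some _ hu, D_some _ hu]
    exact congrArg (fun f => FY.D a f y) (funext fun z => hi z s t)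

theorem ti_gam (a b k : Option ι) : TI (G.F.Gam a b k) := fun y s t => by
  rw [h.F, gam_cyl]
  cases a <;> cases b <;> cases k <;> rfl

theorem D_snd (k : Option ι) (x : Y × ℝ) :
    G.F.D k Prod.snd x = k.elim 1 fun _ => 0 := by
  rw [h.D_eq]
  cases k
  · exact (congrFun (D_none_snd FY.toPre contDiff_id) x).trans (by simp)
  · exact congrFun (D_some_snd FY.toPre contDiff_id _) x

theorem xA_snd (x : Y × ℝ) (a : Option ι) :
    Dgr80.xA G.F c Prod.snd x a = c.m.Fg G.F c.W x (none, a) := by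
  simp [Dgr80.xA, h.D_snd]

theorem xP_snd (x : Y × ℝ) : Dgr80.xP G.F c Prod.snd x = nab (IC I) G.F.e c.W none c.Φ x := by
  simp [Dgr80.xP, Dgr80.nt, h.D_snd]

theorem curv_tmp (ht : ∀ x, c.W none x = 0) (a : Option ι) (x : Y × ℝ) :
    curv (IC I) G.F.e G.F.c c.W none a x = G.F.D none (c.W a) x := by
  have : c.W none = 0 := funext ht
  simp [curv, this, h.c_none, Pre.D_def]

theorem nab_tmp (ht : ∀ x, c.W none x = 0) (u : Y × ℝ → c.m.V) (x : Y × ℝ) :
    nab (IC I) G.F.e c.W none u x = G.F.D none u x := by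
  simp [nab, ht, Pre.D_def]

/-- in temporal gauge the time derivative of the connection is its curvature -/
theorem dW_p (hc : c.Adm B G) (ht : Tmp c) (a : ι) (x : Y × ℝ) :
    G.F.D none (c.W (some a)) x * c.m.p x = opL (c.m.Fg G.F c.W x (none, some a)) ∧
    G.F.D none (c.W (some a)) x * c.m.p x = c.m.p x * G.F.D none (c.W (some a)) x := by
  obtain ⟨y, t⟩ := x
  set X := G.F.D none (c.W (some a)) (y, t) with hX
  have hd : HasDerivAt (fun s => c.W (some a) (y, s)) X t :=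
    h.slice (fun x => hc.conn.cc.sm _ x) y t
  have h1 : X * c.m.p (y, t) = c.m.p (y, t) * X :=
    comm_deriv hd (C := -G.F.D (some a) c.m.p (y, t)) fun s => by
      rw [ht.p y t s, h.ti_D hc.ok.sp ht.p a y t s]
      exact eq_neg_of_add_eq_zero_right (hc.conn.cc.par (some a) (y, s))
  have h2 : X * c.m.J = c.m.J * X :=
    comm_deriv hd (C := 0) fun s => sub_eq_zero.2 (hc.conn.J _ _).symm
  have h3 : ∀ b, X * c.m.ρ b (y, t) = c.m.ρ b (y, t) * X := fun b =>
    comm_deriv hd (C := ∑ k, G.F.Gam (some a) b k (y, t) • c.m.ρ k (y, t) -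
        G.F.D (some a) (c.m.ρ b) (y, t)) fun s => by
      simp only [ht.ρ _ y t s, h.ti_D (hc.ok.sρ b) (ht.ρ b) a y t s, h.ti_gam _ _ _ y t s]
      exact eq_sub_of_add_eq' (hc.conn.cc.comp (some a) b (y, s))
  have h4 : ∀ w, X * c.m.j (y, t) w = c.m.j (y, t) w * X := fun w =>
    comm_deriv hd (C := c.m.j (y, t) (G.a (some a) (y, t) w) - G.F.D (some a) c.m.j (y, t) w)
      fun s => by
        rw [ht.j y t s, h.ti_D hc.ok.sj ht.j a y t s, h.a _ y t s]
        exact eq_sub_of_add_eq' (hc.conn.j (some a) (y, s) w)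
  have h5 : trn X = -X := by
    have k := (trnL.hasFDerivAt.comp_hasDerivAt t hd).add hd
    rw [show ((trnL ∘ fun s => c.W (some a) (y, s)) + fun s => c.W (some a) (y, s)) = fun _ => 0
      from funext fun s => add_eq_zero_iff_eq_neg.2 (trn_of_skw (hc.conn.sk _ _))] at k
    exact add_eq_zero_iff_eq_neg.1 (k.unique (hasDerivAt_const t 0))
  have hm : hsL (X * c.m.p (y, t)) ∈ c.m.gS (y, t) := by
    refine ⟨?_, ?_, ?_, fun b => ?_, fun w => ?_⟩ <;> rw [opL_hsL]
    · refine skw_of_trn ?_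
      rw [ContinuousLinearMap.mul_def, trn_comp, h5, trn_of_sym (hc.ok.psym _),
        ContinuousLinearMap.comp_neg, ← ContinuousLinearMap.mul_def, ← h1]; rfl
    · rw [h1, ← mul_assoc, hc.ok.pidem]
    · rw [← mul_assoc, ← h2, mul_assoc, hc.ok.Jp, mul_assoc]
    · rw [mul_assoc, (hc.ok.cl _).pl b, h1, ← mul_assoc, (hc.ok.cl _).pr b, h3]
    · rw [mul_assoc, hc.ok.pj, h1, ← mul_assoc, (OK.on hc.ok univ).jp (mem_univ _), h4]
  refine ⟨?_, h1⟩
  change _ = opL (c.m.pg (y, t) (hsL (curv (IC I) G.F.e G.F.c c.W none (some a) (y, t))))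
  rw [h.curv_tmp ht.W, ← Wz78.pg_mul_p, Wz78.pg_of_mem hm, opL_hsL]

theorem dW (hc : c.Adm B G) (ht : Tmp c) (hr : Red c) (a : ι) (x : Y × ℝ) :
    G.F.D none (c.W (some a)) x = opL (c.m.Fg G.F c.W x (none, some a)) := by
  obtain ⟨h1, h2⟩ := h.dW_p hc ht a x
  obtain ⟨y, t⟩ := x
  have k := ((h.slice (fun x => hc.conn.cc.sm (some a) x) y t).const_mul
    (1 - c.m.p (y, t))).mul_const (1 - c.m.p (y, t))
  rw [show (fun s => (1 - c.m.p (y, t)) * c.W (some a) (y, s) * (1 - c.m.p (y, t))) = fun _ => 0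
    from funext fun s => by rw [ht.p y t s]; exact hr _ _] at k
  have k2 := k.unique (hasDerivAt_const t 0)
  rw [sub_mul, ← h2, one_mul, sub_mul, mul_assoc _ (c.m.p _), mul_sub (c.m.p _), mul_one,
    hc.ok.pidem, sub_self, mul_zero, sub_zero, mul_sub, mul_one] at k2
  rw [← h1]; exact sub_eq_zero.1 k2

theorem W_sub (hc : c.Adm B G) (ht : Tmp c) (hr : Red c) (a : ι) (y : Y) (s t : ℝ) :
    c.W (some a) (y, t) - c.W (some a) (y, s) =
      ∫ τ in s..t, opL (c.m.Fg G.F c.W (y, τ) (none, some a)) := by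
  have hs : Sm (IC I) (c.W (some a)) := fun x => hc.conn.cc.sm _ x
  simp only [← h.dW hc ht hr]
  exact (intervalIntegral.integral_eq_sub_of_hasDerivAt (fun τ _ => h.slice hs y τ)
    ((sm_slice_snd (G.F.sm_D hs none) y).continuous.intervalIntegrable _ _)).symm

theorem Φ_sub (hc : c.Adm B G) (ht : Tmp c) (y : Y) (s t : ℝ) :
    c.Φ (y, t) - c.Φ (y, s) = ∫ τ in s..t, nab (IC I) G.F.e c.W none c.Φ (y, τ) := by
  simp only [h.nab_tmp ht.W]
  exact (intervalIntegral.integral_eq_sub_of_hasDerivAt (fun τ _ => h.slice hc.sm y τ)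
    ((sm_slice_snd (G.F.sm_D hc.sm none) y).continuous.intervalIntegrable _ _)).symm

/-- unitary parallel transport in the time direction -/
theorem exists_par (hc : c.Adm B G) (t0 : ℝ) : ∃ k : Y × ℝ → En (Fin c.m.N), Sm (IC I) k ∧
    (∀ y, k (y, t0) = 1) ∧ (∀ x, k x * ad (k x) = 1) ∧ (∀ x, ad (k x) * k x = 1) ∧
    (∀ x, G.F.D none k x = k x * c.W none x) ∧ (∀ x, c.m.J * k x = k x * c.m.J) ∧
    (∀ x, c.m.p (x.1, t0) * k x = k x * c.m.p x) ∧
    (∀ a x, c.m.ρ a (x.1, t0) * k x = k x * c.m.ρ a x) ∧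
    ∀ x w, c.m.j (x.1, t0) w * k x = k x * c.m.j x w := by
  have hW : Sm (IC I) (c.W none) := fun x => hc.conn.cc.sm _ x
  obtain ⟨g, k, g1, k1, g2, k2, g3, k3, kg, gk⟩ := exists_transport hW t0
  have ag : ∀ x, ad (k x) = g x := fun ⟨y, t⟩ => by
    refine lin_unique (L := fun t => -ContinuousLinearMap.mul ℝ _ (c.W none (y, t)))
      (f := fun t => ad (k (y, t))) (g := fun t => g (y, t))
      ((ContinuousLinearMap.mul ℝ _).continuous.comp (sm_slice_snd hW y).continuous).neg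
      (fun t => ?_) (g3 y) (t0 := t0) (by rw [k2, g2, ad_one]) t
    refine (adL.hasFDerivAt.comp_hasDerivAt t (k3 y t)).congr_deriv ?_
    change ad (k (y, t) ∘L c.W none (y, t)) = _
    rw [ad_comp, ad_skew.2 (hc.conn.sk _ _), ContinuousLinearMap.neg_comp]; rfl
  have key : ∀ {X : Y × ℝ → En (Fin c.m.N)}, Sm (IC I) X →
      (∀ x, G.F.D none X x + (c.W none x * X x - X x * c.W none x) = 0) →
      ∀ x, X (x.1, t0) * k x = k x * X x := fun {X} hX hp ⟨y, t⟩ => by
    have := conj_const (k3 y) (g3 y) (h.slice hX y) (fun t => hp (y, t)) t0 t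
    simp only [k2, g2, one_mul, mul_one] at this
    rw [this, mul_assoc, gk, mul_one]
  refine ⟨k, k1, k2, fun x => by rw [ag, kg], fun x => by rw [ag, gk],
    fun x => (h.slice k1 x.1 x.2).unique (k3 x.1 x.2),
    key (X := fun _ => c.m.J) contMDiff_const fun x => ?_, key hc.ok.sp (hc.conn.cc.par none),
    fun a => key (hc.ok.sρ a) fun x => ?_, fun x w => key (X := fun x => c.m.j x w)
      (hc.ok.sj.clm_apply contMDiff_const) (fun x => ?_) x⟩
  · rw [hc.conn.J, sub_self, add_zero]; exact congrFun (dv_const _) x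
  · refine (hc.conn.cc.comp none a x).trans ?_
    simp [h.gam_none]
  · have e : dv (IC I) (G.F.e none) (fun y => c.m.j y w) x = G.F.D none c.m.j x w :=
      dv_clm (ContinuousLinearMap.apply ℝ (En (Fin c.m.N)) w) ((OK.on hc.ok univ).sj x trivial).md
    rw [Pre.D_def]
    rw [e, hc.conn.j, h.a0, zero_apply, map_zero]

/-- the configuration in temporal gauge; its module is the module frozen at `t0` -/
abbrev tmpC (G : Geo (IC I) (Y × ℝ) (Option ι) lam) (c : Cfg (Y × ℝ) (Option ι) lam r) (t0 : ℝ)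
    (u : Y × ℝ → En (Fin c.m.N)) : Cfg (Y × ℝ) (Option ι) lam r :=
  psh G.F c (sqM (fun _ => t0) c.m) u

/-- **temporal gauge** -/
theorem exists_tmp (hB : B.OK (IC I)) (hc : c.Adm B G) (t0 : ℝ) :
    ∃ u : Y × ℝ → En (Fin c.m.N), (tmpC G c t0 u).Adm B G ∧ Eq0 G.F c (tmpC G c t0 u) univ u ∧
      Tmp (tmpC G c t0 u) ∧ Red (tmpC G c t0 u) ∧ (∀ y, u (y, t0) = c.m.p (y, t0)) ∧
      (∀ y, (tmpC G c t0 u).Φ (y, t0) = c.Φ (y, t0)) ∧
      ∀ a y, (show En (Fin c.m.N) from (tmpC G c t0 u).W (some a) (y, t0)) * c.m.p (y, t0) =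
        c.W (some a) (y, t0) * c.m.p (y, t0) := by
  obtain ⟨k, k1, k2, k3, k4, k5, k6, k7, k8, k9⟩ := h.exists_par hc t0
  have pp := fun x => (OK.on hc.ok univ).prj (mem_univ x)
  have su : Sm (IC I) fun x => k x * c.m.p x := fun x => FSm.cc (k1 x) (hc.ok.sp x)
  have hu : Iso0 (IC I) c.m (sqM (fun _ => t0) c.m) univ fun x => k x * c.m.p x := by
    refine ⟨fun x _ => su x, fun x _ => CIso.of_prj (hc.ok.pidem x) ?_ ?_, fun x _ => ?_,
      fun x _ a => ?_, fun x _ w => ?_⟩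
    · change ad (k x ∘L c.m.p x) * (k x * c.m.p x) = c.m.p x
      rw [ad_comp, (pp x).herm, ← ContinuousLinearMap.mul_def, mul_assoc, ← mul_assoc (ad _), k4,
        one_mul, hc.ok.pidem]
    · change (k x * c.m.p x) * ad (k x ∘L c.m.p x) = c.m.p (x.1, t0)
      rw [ad_comp, (pp x).herm, ← ContinuousLinearMap.mul_def, mul_assoc, ← mul_assoc (c.m.p x),
        hc.ok.pidem, ← mul_assoc, ← k7, mul_assoc, k3, mul_one]
    · change c.m.J * (k x * c.m.p x) = k x * c.m.p x * c.m.J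
      rw [← mul_assoc, k6, mul_assoc, hc.ok.Jp, mul_assoc]
    · change c.m.ρ a (x.1, t0) * (k x * c.m.p x) = k x * c.m.p x * c.m.ρ a x
      rw [← mul_assoc, k8, mul_assoc, mul_assoc, (hc.ok.cl x).pl a, (hc.ok.cl x).pr a]
    · change c.m.j (x.1, t0) w * (k x * c.m.p x) = k x * c.m.p x * c.m.j x w
      rw [← mul_assoc, k9, mul_assoc, mul_assoc, hc.ok.pj, (OK.on hc.ok univ).jp (mem_univ x)]
  obtain ⟨h1, h2⟩ := psh_spec hB h.GP hc (h.adm_sq contDiff_const hc).ok hu
  have h3 : ∀ y, k (y, t0) * c.m.p (y, t0) = c.m.p (y, t0) := fun y => by rw [k2, one_mul]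
  refine ⟨fun x => k x * c.m.p x, h1, h2, ⟨fun _ _ _ => rfl, fun _ _ _ _ => rfl, fun _ _ _ => rfl,
    fun x => ?_⟩, red_psh hu, h3, fun y => ?_, fun a y => ?_⟩
  · have hT : pshT (IC I) (G.F.e none) (fun x => k x * c.m.p x) (c.W none) x = 0 := by
      rw [pshT, Wz78.dv_mul (k1 x) (hc.ok.sp x), ← Pre.D_def, k5,
        eq_neg_of_add_eq_zero_left (hc.conn.cc.par none x), ← ContinuousLinearMap.mul_def]
      noncomm_ring
    change pshW (IC I) (G.F.e none) (fun x => k x * c.m.p x) (c.W none) x = 0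
    simp [pshW, hT, ad_zero]
  · change (k (y, t0) * c.m.p (y, t0)) (c.Φ (y, t0)) = _
    rw [h3]; exact (admOn_univ.2 hc).pΦ (mem_univ _)
  · have e := h2.par (y, t0) trivial (some a)
    have e2 : G.F.D (some a) (fun x => k x * c.m.p x) (y, t0) = G.F.D (some a) c.m.p (y, t0) := by
      rw [h.D_eq, h.D_eq, D_some _ su, D_some _ hc.ok.sp]
      simp only [h3]
    have e3 := eq_neg_of_add_eq_zero_left (hc.conn.cc.par (some a) (y, t0))
    rw [← Pre.D_def] at e3
    set X : En (Fin c.m.N) := (tmpC G c t0 fun x => k x * c.m.p x).W (some a) (y, t0)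
    change G.F.D (some a) (fun x => k x * c.m.p x) (y, t0) + X * (k (y, t0) * c.m.p (y, t0)) -
      k (y, t0) * c.m.p (y, t0) * c.W (some a) (y, t0) = 0 at e
    rw [e2, e3, h3] at e
    rw [← sub_eq_zero, ← e]; abel

/-- **`ẋ = 0` on a band implies translation invariance up to gauge** -/
theorem exists_frz (hB : B.OK (IC I)) (hc : c.Adm B G) {J : Set ℝ} (hJ : J.OrdConnected) {t0 : ℝ}
    (h0 : t0 ∈ J) (hA : ∀ y, ∀ t ∈ J, ∀ a, c.m.Fg G.F c.W (y, t) (none, some a) = 0)
    (hP : ∀ y, ∀ t ∈ J, nab (IC I) G.F.e c.W none c.Φ (y, t) = 0) :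
    ∃ u : Y × ℝ → En (Fin c.m.N), Sm (IC I) u ∧ (∀ y, u (y, t0) = c.m.p (y, t0)) ∧
      Eq0 G.F c (frz t0 c) (univ ×ˢ J) u := by
  obtain ⟨u, h1, h2, h3, h4, h5, h6, h7⟩ := h.exists_tmp hB hc t0
  refine ⟨u, fun x => h2.iso.su x trivial, h5, h2.iso.mono (subset_univ _), ?_, ?_, rfl⟩
  · rintro ⟨y, t⟩ hx a
    have e := h2.par (y, t) trivial a
    have : (tmpC G c t0 u).W a (y, t) ∘L u (y, t) = (frz t0 c).W a (y, t) ∘L u (y, t) := by
      cases a with
      | none => rw [h3.W, frz_none]; rfl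
      | some a =>
        have k := h.W_sub h1 h3 h4 a y t0 t
        rw [intervalIntegral.integral_congr (g := fun _ => 0) fun τ hτ => by
          rw [h2.Fg isOpen_univ hB hc h1 (mem_univ _), hA y τ (hJ.uIcc_subset h0 hx.2 hτ),
            map_zero, map_zero], intervalIntegral.integral_zero, sub_eq_zero] at k
        rw [k, frz_some, ← (h2.iso.iso (y, t) trivial).left]
        exact congrArg (· ∘L u (y, t)) (h7 a y)
    rw [this] at e
    exact e
  · rintro ⟨y, t⟩ hx
    have k := h.Φ_sub h1 h3 y t0 t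
    rw [intervalIntegral.integral_congr (g := fun _ => 0) fun τ hτ => by
      rw [h2.nab isOpen_univ (admOn_univ.2 hc) (mem_univ _), hP y τ (hJ.uIcc_subset h0 hx.2 hτ),
        map_zero], intervalIntegral.integral_zero, sub_eq_zero, h6] at k
    exact k.symm

end Cy

end Crest.Agent.X212.Tmp64
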