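import Crest.Agent.X212.Pj41.Md
import Crest.Agent.X212.Eqv71.Gau
import Crest.Agent.X212.Cyf70.Cyl

/-!
# X212, TEMP (helper64), part 2: product backgrounds on `Y × ℝ` and reparametrisation of time

`Cy FY B G`: the background is a product.  `sqC θ c` is the pull-back of a configuration along
`(y, t) ↦ (y, θ t)`: translation (`θ = (· + s)`), freezing (`θ` constant), extension of a
configuration on a band to the whole cylinder (`θ` with values in the band).
-/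

set_option autoImplicit false
set_option linter.unusedSectionVars false
noncomputable section
open scoped Manifold ContDiff Topology InnerProductSpace
open MeasureTheory Set Function Filter

namespace Crest.Agent.X212.Tmp64
open An Sob92 Cyf70 Pj41 Eqv71

section gen
variable {E : Type} [NormedAddCommGroup E] [NormedSpace ℝ E] [FiniteDimensional ℝ E]
  [MeasurableSpace E] [BorelSpace E]
  {HM : Type} [TopologicalSpace HM] {I : ModelWithCorners ℝ E HM}
  {M : Type} [TopologicalSpace M] [ChartedSpace HM M] [IsManifold I ∞ M]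
  [MeasurableSpace M] {ι : Type} [Fintype ι] {lam : Type} [Fintype lam] {r : ℕ}
  {B : Base M ι lam} {G : Geo I M ι lam}

theorem skw_smul {κ : Type} [Fintype κ] (t : ℝ) {A : En κ} (h : Skw A) : Skw (t • A) :=
  fun v w => by rw [smul_apply, smul_apply, real_inner_smul_left, real_inner_smul_right, h, mul_neg]

/-- an admissible configuration over the set `O` -/
structure AdmOn (c : Cfg M ι lam r) (B : Base M ι lam) (G : Geo I M ι lam) (O : Set M) : Prop where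
  ok : OKOn I B c.m O
  conn : ConnOn B G c.m c.W O
  sm : ∀ x ∈ O, FSm I c.Φ x
  pos : ∀ x ∈ O, c.m.pp B x (c.Φ x) = c.Φ x
  z : r = 0 ∨ ‖c.z‖ = 1

theorem admOn_univ {c : Cfg M ι lam r} : AdmOn c B G univ ↔ c.Adm B G :=
  ⟨fun h => ⟨okOn_univ.1 h.ok, h.conn.isConn (okOn_univ.1 h.ok), fun x => h.sm x trivial,
    fun x => h.pos x trivial, h.z⟩,
   fun h => ⟨okOn_univ.2 h.ok, IsConn.on h.conn _, fun x _ => h.sm x, fun x _ => h.pos x, h.z⟩⟩

theorem AdmOn.mono {c : Cfg M ι lam r} {O O' : Set M} (h : AdmOn c B G O) (hO : O' ⊆ O) :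
    AdmOn c B G O' :=
  ⟨h.ok.mono hO, h.conn.mono hO, fun x hx => h.sm x (hO hx), fun x hx => h.pos x (hO hx), h.z⟩

/-- equivalence of configurations over the identity, with phase one -/
structure Eq0 (F : Fr I M ι) (c c' : Cfg M ι lam r) (O : Set M) (u : M → CL c.m.V c'.m.V) :
    Prop where
  iso : Iso0 I c.m c'.m O u
  par : Par0 F c.W c'.W O u
  Φ : ∀ x ∈ O, c'.Φ x = u x (c.Φ x)
  z : c'.z = c.z

theorem Eq0.mono {F : Fr I M ι} {c c' : Cfg M ι lam r} {O O' : Set M} {u : M → CL c.m.V c'.m.V}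
    (h : Eq0 F c c' O u) (hO : O' ⊆ O) : Eq0 F c c' O' u :=
  ⟨h.iso.mono hO, h.par.mono hO, fun x hx => h.Φ x (hO hx), h.z⟩

theorem Eq0.trans {F : Fr I M ι} {c c' c'' : Cfg M ι lam r} {O : Set M} {u : M → CL c.m.V c'.m.V}
    {v : M → CL c'.m.V c''.m.V} (h : Eq0 F c c' O u) (h' : Eq0 F c' c'' O v) :
    Eq0 F c c'' O fun x => v x ∘L u x :=
  ⟨h.iso.trans h'.iso, h.par.trans h'.par h.iso.su h'.iso.su,
    fun x hx => by rw [h'.Φ x hx, h.Φ x hx]; rfl, h'.z.trans h.z⟩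

theorem p_pp {m : Md M ι lam} {O : Set M} (h : OKOn I B m O) {x : M} (hx : x ∈ O) :
    m.p x * m.pp B x = m.pp B x := by
  simp only [Md.pp, Md.om, mul_smul_comm, mul_sub, h.pidem x hx, Finset.mul_sum, ← mul_assoc,
    (h.cl x hx).pl]

theorem AdmOn.pΦ {c : Cfg M ι lam r} {O : Set M} (h : AdmOn c B G O) {x : M} (hx : x ∈ O) :
    c.m.p x (c.Φ x) = c.Φ x := by
  rw [← h.pos x hx]
  exact congrArg (fun T : En (Fin c.m.N) => T (c.Φ x)) (p_pp h.ok hx)

theorem Eq0.refl {c : Cfg M ι lam r} {O : Set M} (h : AdmOn c B G O) : Eq0 G.F c c O c.m.p :=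
  ⟨Iso0.refl h.ok, fun x hx a => by rw [← h.conn.par a x hx, add_sub_assoc]; rfl,
    fun _ hx => (h.pΦ hx).symm, rfl⟩

theorem Eq0.symm {c c' : Cfg M ι lam r} {O : Set M} {u : M → CL c.m.V c'.m.V}
    (h : Eq0 G.F c c' O u) (hc : AdmOn c B G O) (hc' : AdmOn c' B G O) :
    Eq0 G.F c' c O fun x => ad (u x) :=
  ⟨h.iso.symm hc.ok hc'.ok, h.par.symm h.iso.su hc.conn.sk hc'.conn.sk, fun x hx => by
    rw [h.Φ x hx, ← hc.pΦ hx, ← (h.iso.iso x hx).src]
    exact congrArg (fun w => ad (u x) (u x w)) (by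
      rw [(h.iso.iso x hx).src]; exact (hc.pΦ hx).symm), h.z.symm⟩

theorem Eq0.cEq {c c' : Cfg M ι lam r} {O : Set M} {u : M → CL c.m.V c'.m.V}
    (h : Eq0 G.F c c' O u) (hB : B.OK I) (hc : AdmOn c B G O) (hc' : AdmOn c' B G O) :
    CEq G.F c c' O id (fun x b a => B.P b a x) B.l u 1 :=
  ⟨h.iso.mEq hc.ok hc'.ok, (par0_iff (hc'.conn.proj' hB)).1 h.par,
    fun x hx => by simpa [cs] using h.Φ x hx, by simpa using h.z⟩

theorem Eq0.cfgIso {c c' : Cfg M ι lam r} {u : M → CL c.m.V c'.m.V} (h : Eq0 G.F c c' univ u)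
    (hB : B.OK I) (hc : c.Adm B G) (hc' : c'.Adm B G) : Cfg.Iso B G.F c c' :=
  ⟨u, 1, h.cEq hB (admOn_univ.2 hc) (admOn_univ.2 hc')⟩

theorem Eq0.lm {c c' : Cfg M ι lam r} {O : Set M} {u : M → CL c.m.V c'.m.V}
    (h : Eq0 G.F c c' O u) (hO : IsOpen O) (hB : B.OK I) (hG : G.OK B) (hc : c.Adm B G)
    (hc' : c'.Adm B G) : LM B G B G O id (fun x b a => B.P b a x) B.l c.W c'.W u :=
  have k := h.cEq hB ((admOn_univ.2 hc).mono (subset_univ _))
    ((admOn_univ.2 hc').mono (subset_univ _))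
  (lg_refl hB hG hO).lm hc.ok hc'.ok hc.conn hc'.conn k.m k.W

/-- push forward of a configuration along an isomorphism of modules -/
def psh (F : Fr I M ι) (c : Cfg M ι lam r) (m' : Md M ι lam) (u : M → CL c.m.V m'.V) :
    Cfg M ι lam r := ⟨m', pshC F u c.W, fun x => u x (c.Φ x), c.z⟩

theorem psh_spec {c : Cfg M ι lam r} {m' : Md M ι lam} {u : M → CL c.m.V m'.V} (hB : B.OK I)
    (hG : G.F.P = B.P) (hc : c.Adm B G) (hm : m'.OK I B) (hu : Iso0 I c.m m' univ u) :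
    (psh G.F c m' u).Adm B G ∧ Eq0 G.F c (psh G.F c m' u) univ u := by
  obtain ⟨h1, h2⟩ := conn_push hu isOpen_univ (OK.on hc.ok _) (OK.on hm _) hG (IsConn.on hc.conn _)
  refine ⟨⟨hm, h1.isConn hm, fun x => (hu.su x trivial).clm_apply (hc.sm x), fun x => ?_, hc.z⟩,
    hu, h2, fun _ _ => rfl, rfl⟩
  have := (me_of_meq (hu.mEq (OK.on hc.ok _) (OK.on hm _)) (mem_univ x)).pp (BE.refl hB x) hB hB
    hc.ok (c.Φ x)
  rw [hc.pos] at this
  exact this

end gen

variable {E : Type} [NormedAddCommGroup E] [NormedSpace ℝ E] [FiniteDimensional ℝ E]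
  [MeasurableSpace E] [BorelSpace E]
  {HM : Type} [TopologicalSpace HM] {I : ModelWithCorners ℝ E HM} [I.Boundaryless]
  {Y : Type} [TopologicalSpace Y] [ChartedSpace HM Y] [IsManifold I ∞ Y] [T2Space Y]
  [MeasurableSpace Y] [BorelSpace Y] [SigmaCompactSpace Y]
  {ι : Type} [Fintype ι] {lam : Type} [Fintype lam] {r : ℕ}
  {N : Type} [NormedAddCommGroup N] [NormedSpace ℝ N]

/-- the Levi-Civita coefficients of the cylinder -/
theorem gam_cyl (F : Fr I Y ι) : (cyl F).Gam = cc F.Gam := by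
  have h0 : ∀ (a : Option ι) (t : ℝ) x, (cylP F.toPre).D a (fun _ => t) x = 0 := fun a t x =>
    congrFun (dv_const t) x
  funext a b k x
  cases a <;> cases b <;> cases k <;>
    simp only [Fr.Gam, cyl, cP, cc, h0, D_none_fst F.toPre (F.P_sm _ _),
      D_some_fst F.toPre (F.P_sm _ _), Pi.zero_apply] <;> norm_num

/-- a product background on the cylinder -/
structure Cy (FY : Fr I Y ι) (B : Base (Y × ℝ) (Option ι) lam)
    (G : Geo (IC I) (Y × ℝ) (Option ι) lam) : Prop where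
  F : G.F = cyl FY
  P : B.P = cP FY.P
  o : ∀ a b c d y s t, B.o a b c d (y, s) = B.o a b c d (y, t)
  l : ∀ y s t, B.l (y, s) = B.l (y, t)
  a0 : ∀ x, G.a none x = 0
  a : ∀ a y s t, G.a a (y, s) = G.a a (y, t)

/-- reparametrisation of time -/
def sq (θ : ℝ → ℝ) (x : Y × ℝ) : Y × ℝ := (x.1, θ x.2)

/-- the factor of the chain rule -/
def sw (θ : ℝ → ℝ) : Option ι → ℝ → ℝ
  | none => deriv θ
  | some _ => fun _ => 1

variable {θ : ℝ → ℝ}

theorem sq_sm (hθ : ContDiff ℝ ∞ θ) : ContMDiff (IC I) (IC I) ∞ (sq (Y := Y) θ) :=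
  contMDiff_fst.prodMk (sm_snd (I := I) hθ)

theorem sw_sm (hθ : ContDiff ℝ ∞ θ) (a : Option ι) : ContDiff ℝ ∞ (sw θ a) := by
  cases a
  exacts [(contDiff_infty_iff_deriv.1 hθ).2, contDiff_const]

theorem fsm_sq (hθ : ContDiff ℝ ∞ θ) {u : Y × ℝ → N} {x : Y × ℝ} (hu : FSm (IC I) u (sq θ x)) :
    FSm (IC I) (fun z => u (sq θ z)) x := hu.comp x (sq_sm hθ x)

theorem D_sq (F : Pre I Y ι) (hθ : ContDiff ℝ ∞ θ) {u : Y × ℝ → N} {x : Y × ℝ}
    (hu : FSm (IC I) u (sq θ x)) (a : Option ι) :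
    (cylP F).D a (fun z => u (sq θ z)) x = sw θ a x.2 • (cylP F).D a u (sq θ x) := by
  cases a with
  | none =>
    rw [D_none_at F (fsm_sq hθ hu).md, D_none_at F hu.md]
    exact ((diff_slice_snd hu.md).hasDerivAt.scomp x.2
      (hθ.differentiable (by simp) x.2).hasDerivAt).deriv
  | some a =>
    rw [D_some_at F (fsm_sq hθ hu).md, D_some_at F hu.md]
    exact (one_smul _ _).symm

/-- the reparametrised module -/
def sqM (θ : ℝ → ℝ) (m : Md (Y × ℝ) (Option ι) lam) : Md (Y × ℝ) (Option ι) lam :=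
  ⟨m.N, m.J, fun x => m.p (sq θ x), fun a x => m.ρ a (sq θ x), fun x => m.j (sq θ x)⟩

/-- the reparametrised configuration -/
def sqC (θ : ℝ → ℝ) (c : Cfg (Y × ℝ) (Option ι) lam r) : Cfg (Y × ℝ) (Option ι) lam r :=
  ⟨sqM θ c.m, fun a x => sw θ a x.2 • c.W a (sq θ x), fun x => c.Φ (sq θ x), c.z⟩

variable {FY : Fr I Y ι} {B : Base (Y × ℝ) (Option ι) lam} {G : Geo (IC I) (Y × ℝ) (Option ι) lam}
  {O : Set (Y × ℝ)}

namespace Cy
variable (h : Cy FY B G)
include h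

theorem P_sq (θ : ℝ → ℝ) (a b : Option ι) (x : Y × ℝ) : B.P a b (sq θ x) = B.P a b x := by
  rw [h.P]; cases a <;> cases b <;> rfl

theorem l_sq (θ : ℝ → ℝ) (x : Y × ℝ) : B.l (sq θ x) = B.l x := h.l _ _ _

theorem o_sq (θ : ℝ → ℝ) (a b c d : Option ι) (x : Y × ℝ) :
    B.o a b c d (sq θ x) = B.o a b c d x := h.o _ _ _ _ _ _ _

theorem GP : G.F.P = B.P := by rw [h.F, h.P]; rfl

theorem D_eq (a : Option ι) (u : Y × ℝ → N) : G.F.D a u = (cylP FY.toPre).D a u := by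
  rw [h.F]; rfl

theorem gam_none (b k : Option ι) (x : Y × ℝ) : G.F.Gam none b k x = 0 := by
  rw [h.F, gam_cyl]; rfl

theorem gam_sq (θ : ℝ → ℝ) (a b k : Option ι) (x : Y × ℝ) :
    sw θ a x.2 * G.F.Gam a b k (sq θ x) = G.F.Gam a b k x := by
  rw [h.F, gam_cyl]
  cases a <;> cases b <;> cases k <;> simp [cc, sw, sq]

theorem a_sq (θ : ℝ → ℝ) (a : Option ι) (x : Y × ℝ) : sw θ a x.2 • G.a a (sq θ x) = G.a a x := by
  cases a with
  | none => rw [h.a0, h.a0, smul_zero]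
  | some a => exact (one_smul _ _).trans (h.a _ _ _ _)

theorem P_sw (θ : ℝ → ℝ) (a b : Option ι) (x : Y × ℝ) :
    B.P a b x * sw θ b x.2 = sw θ a x.2 * B.P a b x := by
  rw [h.P]; cases a <;> cases b <;> simp [cP, sw]

theorem c_none (b k : Option ι) (x : Y × ℝ) : G.F.c none b k x = 0 := by rw [h.F]; rfl

theorem D_sq (hθ : ContDiff ℝ ∞ θ) {u : Y × ℝ → N} {x : Y × ℝ} (hu : FSm (IC I) u (sq θ x))
    (a : Option ι) : G.F.D a (fun z => u (sq θ z)) x = sw θ a x.2 • G.F.D a u (sq θ x) := by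
  rw [h.D_eq, h.D_eq, Tmp64.D_sq _ hθ hu]

theorem okOn_sq (hθ : ContDiff ℝ ∞ θ) {m : Md (Y × ℝ) (Option ι) lam} (hm : OKOn (IC I) B m O) :
    OKOn (IC I) B (sqM θ m) (sq θ ⁻¹' O) :=
  ⟨hm.Jsq, hm.Jsk, fun _ hx => fsm_sq hθ (hm.sp _ hx), fun a _ hx => fsm_sq hθ (hm.sρ a _ hx),
    fun _ hx => fsm_sq hθ (hm.sj _ hx), fun _ hx => hm.psym _ hx, fun _ hx => hm.pidem _ hx,
    fun _ hx => hm.prk _ hx, fun _ hx => hm.Jp _ hx,
    fun x hx => by have := hm.cl _ hx; simp only [h.P_sq] at this; exact this,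
    fun a _ hx => hm.ρsk a _ hx,
    fun a _ hx => hm.Jρ a _ hx, fun _ hx => hm.jsym _ hx, fun _ hx => hm.jJ _ hx,
    fun _ hx => hm.jil _ hx,
    fun x hx s => by have := hm.jl _ hx s; rw [h.l_sq] at this; exact this,
    fun x hx s => by have := hm.jsq _ hx s; rw [h.l_sq] at this; exact this, fun _ hx => hm.pj _ hx,
    fun a _ hx => hm.jρ a _ hx⟩

theorem pp_sq (θ : ℝ → ℝ) (m : Md (Y × ℝ) (Option ι) lam) (x : Y × ℝ) :
    (sqM θ m).pp B x = m.pp B (sq θ x) := by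
  simp only [Md.pp, Md.om, h.o_sq]
  rfl

/-- **the pull-back of an admissible configuration is admissible** -/
theorem admOn_sq (hθ : ContDiff ℝ ∞ θ) {c : Cfg (Y × ℝ) (Option ι) lam r} (hc : AdmOn c B G O) :
    AdmOn (sqC θ c) B G (sq θ ⁻¹' O) := by
  have key : ∀ (a : Option ι) (x : Y × ℝ) (D X : En (Fin c.m.N)),
      sw θ a x.2 • D + (sw θ a x.2 • c.W a (sq θ x) * X - X * sw θ a x.2 • c.W a (sq θ x)) =
        sw θ a x.2 • (D + (c.W a (sq θ x) * X - X * c.W a (sq θ x))) := fun a x D X => by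
    rw [smul_mul_assoc, mul_smul_comm, smul_add, smul_sub]
  refine ⟨h.okOn_sq hθ hc.ok, ⟨fun a x hx => ?_, fun a x hx => ?_, fun a x hx => ?_,
    fun a b x hx => ?_, fun a x hx v w => ?_, fun a x hx => ?_, fun a x hx s => ?_⟩,
    fun _ hx => fsm_sq hθ (hc.sm _ hx), fun x hx => ?_, hc.z⟩
  · exact Wz78.SA.smul (sm_snd (sw_sm hθ a) x) (fsm_sq hθ (hc.conn.sm a _ hx))
  · change ∑ b, B.P a b x • sw θ b x.2 • c.W b (sq θ x) = sw θ a x.2 • c.W a (sq θ x)
    rw [← hc.conn.proj a _ hx, Finset.smul_sum]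
    simp only [smul_smul, h.P_sw, h.P_sq]
  · have := key a x (G.F.D a c.m.p (sq θ x)) (c.m.p (sq θ x))
    rw [hc.conn.par a _ hx, smul_zero, ← h.D_sq hθ (hc.ok.sp _ hx)] at this
    exact this
  · have := key a x (G.F.D a (c.m.ρ b) (sq θ x)) (c.m.ρ b (sq θ x))
    rw [hc.conn.comp a b _ hx, ← h.D_sq hθ (hc.ok.sρ b _ hx), Finset.smul_sum] at this
    simp only [smul_smul (sw θ a x.2), h.gam_sq] at this
    exact this
  · exact skw_smul _ (hc.conn.sk a _ hx) v w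
  · change c.m.J * sw θ a x.2 • c.W a (sq θ x) = sw θ a x.2 • c.W a (sq θ x) * c.m.J
    rw [smul_mul_assoc, mul_smul_comm, hc.conn.J a _ hx]
  · have := key a x (G.F.D a c.m.j (sq θ x) s) (c.m.j (sq θ x) s)
    rw [hc.conn.j a _ hx, ← map_smul (c.m.j _), ← smul_apply (G.a a _), h.a_sq, ← smul_apply,
      ← h.D_sq hθ (hc.ok.sj _ hx)] at this
    exact this
  · exact (congrArg (fun T : En (Fin c.m.N) => T (c.Φ (sq θ x))) (h.pp_sq θ c.m x)).trans
      (hc.pos _ hx)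

theorem adm_sq (hθ : ContDiff ℝ ∞ θ) {c : Cfg (Y × ℝ) (Option ι) lam r} (hc : c.Adm B G) :
    (sqC θ c).Adm B G := admOn_univ.1 (h.admOn_sq hθ (admOn_univ.2 hc))

/-- a configuration on a band extends to the cylinder -/
theorem adm_sq_of_band (hθ : ContDiff ℝ ∞ θ) {c : Cfg (Y × ℝ) (Option ι) lam r} {J : Set ℝ}
    (hJ : ∀ t, θ t ∈ J) (hc : AdmOn c B G (univ ×ˢ J)) : (sqC θ c).Adm B G :=
  admOn_univ.1 ((h.admOn_sq hθ hc).mono fun x _ => ⟨trivial, hJ x.2⟩)

/-- equivalences pull back -/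
theorem eq0_sq (hθ : ContDiff ℝ ∞ θ) {c c' : Cfg (Y × ℝ) (Option ι) lam r}
    {u : Y × ℝ → CL c.m.V c'.m.V} (hu : Eq0 G.F c c' O u) :
    Eq0 G.F (sqC θ c) (sqC θ c') (sq θ ⁻¹' O) fun x => u (sq θ x) := by
  refine ⟨⟨fun _ hx => fsm_sq hθ (hu.iso.su _ hx), fun _ hx => hu.iso.iso _ hx,
    fun _ hx => hu.iso.J _ hx, fun _ hx => hu.iso.ρ _ hx, fun _ hx => hu.iso.j _ hx⟩,
    fun x hx a => ?_, fun _ hx => hu.Φ _ hx, hu.z⟩
  have := congrArg (sw θ a x.2 • ·) (hu.par _ hx a)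
  simp only [smul_sub, smul_add, smul_zero, ← h.D_sq hθ (hu.iso.su _ hx),
    ← ContinuousLinearMap.smul_comp] at this
  rw [ContinuousLinearMap.smul_comp _ (u _), ← ContinuousLinearMap.comp_smul] at this
  exact this

/-- where `θ` is a translation the reparametrisation is a local equivalence of backgrounds -/
theorem lg_sq (hB : B.OK (IC I)) (hG : G.OK B) (hθ : ContDiff ℝ ∞ θ) (hO : IsOpen O)
    (h1 : ∀ x ∈ O, deriv θ x.2 = 1) : LG B G B G O (sq θ) (fun x b a => B.P b a x) B.l := by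
  have k := lg_refl hB hG hO
  have hw : ∀ x ∈ O, ∀ a : Option ι, sw θ a x.2 = 1 := fun x hx a => by
    cases a
    exacts [h1 x hx, rfl]
  refine ⟨hB, hG, hB, hG, ⟨hO, fun x _ => sq_sm hθ x, k.rot.sU, fun b x hx => ?_, k.rot.UU,
    fun a b x hx => (k.rot.UU' a b x hx).trans (h.P_sq θ a b x).symm⟩, fun x hx => ?_, k.sv,
    fun x hx a => ?_⟩
  · have h2 : ∀ a, mfderiv (IC I) (IC I) (sq θ) x (G.F.e a x) = G.F.e a (sq θ x) := fun a => by
      have hd : HasMFDerivAt (IC I) 𝓘(ℝ, ℝ) (fun z : Y × ℝ => θ z.2) x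
          (ContinuousLinearMap.snd ℝ E ℝ) := by
        have h3 := (hθ.differentiable (by simp) x.2).hasDerivAt
        rw [h1 x hx] at h3
        have h4 := h3.hasFDerivAt.hasMFDerivAt.comp x (hasMFDerivAt_snd (I := I) (I' := 𝓘(ℝ, ℝ)) x)
        refine h4.congr_mfderiv ?_
        ext1 v
        exact mul_one (show ℝ from v.2)
      have := ((hasMFDerivAt_fst (I := I) (I' := 𝓘(ℝ, ℝ)) x).prodMk hd).mfderiv
      rw [show mfderiv (IC I) (IC I) (sq θ) x = _ from this, h.F]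
      cases a <;> rfl
    simp only [h2]
    rw [← G.F.P_e b (sq θ x), hG.P]
    simp only [h.P_sq]
  · have e := k.be x hx
    exact ⟨e.UU, fun a b => (e.UU' a b).trans (h.P_sq θ a b x).symm,
      fun a b c d => (h.o_sq θ a b c d x).trans (e.o a b c d), e.vv,
      e.vv'.trans (h.l_sq θ x).symm, e.il⟩
  · have := k.par x hx a
    simp only [pb, id] at this ⊢
    rw [← this]
    congr 2
    refine Finset.sum_congr rfl fun b _ => ?_
    rw [← h.a_sq θ b x, hw x hx, one_smul]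

/-- there the pull-back is equivalent to the original configuration -/
theorem ceq_sq (hB : B.OK (IC I)) (hθ : ContDiff ℝ ∞ θ) {c : Cfg (Y × ℝ) (Option ι) lam r}
    {O' : Set (Y × ℝ)} (hc : AdmOn c B G O') (hO : O ⊆ sq θ ⁻¹' O')
    (h1 : ∀ x ∈ O, deriv θ x.2 = 1) :
    CEq G.F (sqC θ c) c O (sq θ) (fun x b a => B.P b a x) B.l (fun x => c.m.p (sq θ x)) 1 := by
  have hs := (h.admOn_sq hθ hc).mono hO
  have k := (Eq0.refl hs).cEq hB hs hs
  refine ⟨⟨k.m.su, k.m.uu, k.m.uu', k.m.J, k.m.ρ, k.m.j⟩, fun x hx a => ?_, k.Φ, k.z⟩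
  have hw : ∀ a : Option ι, sw θ a x.2 = 1 := fun a => by
    cases a
    exacts [h1 x hx, rfl]
  have := k.W x hx a
  simp only [sqC, id, hw, one_smul] at this ⊢
  exact this

end Cy

/-! ### translations -/

variable (Y) in
/-- translation in time -/
def trH (s : ℝ) : Y × ℝ ≃ₜ Y × ℝ := (Homeomorph.refl Y).prodCongr (Homeomorph.addRight s)

theorem trH_eq (s : ℝ) : (trH Y s : Y × ℝ → Y × ℝ) = sq (· + s) := rfl

theorem trH_symm_eq (s : ℝ) : ((trH Y s).symm : Y × ℝ → Y × ℝ) = sq (· + -s) := rfl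

theorem sm_add (s : ℝ) : ContDiff ℝ ∞ fun t : ℝ => t + s := contDiff_id.add contDiff_const

theorem deriv_add' (s t : ℝ) : deriv (fun t : ℝ => t + s) t = 1 := by simp

theorem map_tr (F : Pre I Y ι) (s : ℝ) : (cylP F).μ.map (sq (· + s)) = (cylP F).μ := by
  have := Measure.map_prod_map F.μ (volume : Measure ℝ) measurable_id (measurable_add_const s)
  rw [Measure.map_id, map_add_right_eq_self] at this
  exact this.symm

/-- translations are equivalences of product backgrounds -/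
theorem Cy.geq_tr (h : Cy FY B G) (hB : B.OK (IC I)) (hG : G.OK B) (s : ℝ) :
    GEq B G B G (trH Y s).toOpenPartialHomeomorph (fun x b a => B.P b a x) B.l := by
  have k := h.lg_sq hB hG (sm_add s) isOpen_univ fun x _ => deriv_add' s x.2
  refine ⟨(sq_sm (sm_add s)).contMDiffOn, (sq_sm (sm_add (-s))).contMDiffOn,
    fun b a => (hB.sP b a).contMDiffOn, hB.sl.contMDiffOn, fun x _ => (k.be x trivial).UU,
    fun x _ => (k.be x trivial).UU', fun x _ b => ?_, ?_, fun x _ => (k.be x trivial).o,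
    fun x _ => (k.be x trivial).vv, fun x _ => (k.be x trivial).vv',
    fun x _ => (k.be x trivial).il, fun x _ a => sub_eq_zero.2 (k.par x trivial a)⟩
  · rw [map_sum]
    simp only [map_smul]
    exact (k.rot.fr b x trivial).symm
  · simp only [Homeomorph.toOpenPartialHomeomorph_source, Homeomorph.toOpenPartialHomeomorph_target,
      Measure.restrict_univ, h.F]
    exact map_tr FY.toPre s

theorem sqC_sqC {θ θ' : ℝ → ℝ} (hθ : Differentiable ℝ θ) (hθ' : Differentiable ℝ θ')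
    (c : Cfg (Y × ℝ) (Option ι) lam r) : sqC θ (sqC θ' c) = sqC (θ' ∘ θ) c := by
  have : ∀ (a : Option ι) t, sw θ a t * sw θ' a (θ t) = sw (θ' ∘ θ) a t := fun a t => by
    cases a
    · simp only [sw]; rw [deriv_comp t (hθ' _) (hθ _), mul_comm]
    · simp [sw]
  have e : (fun a x => sw θ a x.2 • sw θ' a (θ x.2) • c.W a (sq (θ' ∘ θ) x) : c.m.Cn) =
      fun a x => sw (θ' ∘ θ) a x.2 • c.W a (sq (θ' ∘ θ) x) := by simp only [smul_smul, this]
  exact congrArg (fun W => (⟨sqM (θ' ∘ θ) c.m, W, fun x => c.Φ (sq (θ' ∘ θ) x), c.z⟩ :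
    Cfg (Y × ℝ) (Option ι) lam r)) e

theorem sqC_id (c : Cfg (Y × ℝ) (Option ι) lam r) : sqC (fun t => t) c = c := by
  have : ∀ (a : Option ι) t, sw (fun t => t) a t = 1 := fun a t => by cases a <;> simp [sw]
  simp only [sqC, this, one_smul]
  rfl

end Crest.Agent.X212.Tmp64
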